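import Crest.Agent.X262.Form88.Geo
import Crest.Agent.X262.Geo.Dv

/-!
# Row 262, FORM (helper88), part 4: log resolutions in the language of `Coh`

* `Val u v` : the place of `u` is the discrete valuation `v`; `Val.dim_eq`, `IsDv.val`, `IsDv.dim_eq`;
* `exists_snc` : finitely many b-divisors are sums of smooth divisors on a higher model;
* `exists_pr`  : every prime divisor has a smooth model;
* `Iso`, `res_iso`, `eq_of_iso`, `not_iso_of_ne` : the locus where a morphism is an isomorphism.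
-/

set_option autoImplicit false

open Set Filter Topology WithZero

noncomputable section

namespace Crest.Agent.X262.Form88

open Crest.Agent.X277 Crest.Agent.X277.Lef Crest.Agent.X277.AN.G1 Crest.Agent.X277.BD
open Crest.Agent.X277.BD.Br (At oP)
open Crest.Agent.X277.Res.Log (On Bd)
open Crest.Agent.X277.Link (IsPD)
open Crest.Agent.X262.Coh Crest.Agent.X262.FG

variable {X Y W G : SV}

theorem _root_.Crest.Agent.X262.Coh.IsEmb.birIm {j : Hom X Y} (h : IsEmb j) : BirIm j :=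
  fun x g => by
    obtain ⟨a, ha, c, hc, h0, rfl⟩ := frac_lp x g
    obtain ⟨a', h1, rfl⟩ := h.2 x a ha
    obtain ⟨c', h2, rfl⟩ := h.2 x c hc
    exact ⟨a', h1, c', h2, h0, div_mul_cancel₀ _ h0⟩

theorem _root_.Crest.Agent.X262.Coh.BirIm.surj {u : Hom X Y} (h : BirIm u) (g : X.F) :
    ∃ f ∈ u.p.O, u.p.π f = g := by
  obtain ⟨a, ha, c, hc, h0, h1⟩ := h (Classical.arbitrary _) g
  exact ⟨a / c, Plc.div_mem (u.mem_O ha) h0, by
    rw [Plc.π_div (u.mem_O ha) h0, ← h1, mul_div_cancel_right₀ _ h0]⟩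

/-- the place of `u` is the valuation `v` -/
def Val (u : Hom X Y) (v : Valuation Y.F ℤᵐ⁰) : Prop := ∀ f, f ∈ u.p.O ↔ v f ≤ 1

namespace Val

variable {u : Hom X Y} {v : Valuation Y.F ℤᵐ⁰} (h : Val u v) {f : Y.F}
include h

theorem on (x : X.Pt) : On v (u.map x) := fun f hf => (h f).1 (u.mem_O hf)

theorem mem_range {y : Y.Pt} : y ∈ range u.map ↔ On v y :=
  ⟨fun ⟨x, hx⟩ => hx ▸ h.on x, fun hy => Form88.mem_range u fun f hf => (h f).2 (hy f hf)⟩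

theorem π_ne_iff : u.p.π f ≠ 0 ↔ v f = 1 := by
  rw [← Strat.Fac.un_plc]
  exact ⟨fun h1 => Link.v_eq_one h1.1 ((h _).1 h1.2.1) ((h _).1 h1.2.2), fun h1 =>
    ⟨Link.ne_of_v_one h1, (h _).2 h1.le, (h _).2 (by rw [map_inv₀, h1, inv_one])⟩⟩

theorem π_eq_iff (hf : v f ≤ 1) : u.p.π f = 0 ↔ v f < 1 := by
  rw [← not_ne_iff, h.π_ne_iff, hf.lt_iff_ne]

theorem dim_eq (hv : IsPD Y.P v) (hs : ∀ g, ∃ f ∈ u.p.O, u.p.π f = g) : X.dim + 1 = Y.dim := by
  have h1 := (Geo.prm_of_isPD hv).dvs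
  obtain ⟨M, D, hD⟩ := Geo.exists_mdl_pdiv h1
  obtain ⟨d, hd⟩ := Geo.dim_pos_of_ne h1.ne_top
  let p : Pl ℂ Y.F ℂ X.F :=
    { V := rz v hv.triv
      φ :=
        { toFun := fun x => u.p.π x
          map_one' := u.p.π_one
          map_zero' := u.p.π_zero
          map_mul' := fun a b => u.p.π_mul ((h _).2 a.2) ((h _).2 b.2)
          map_add' := fun a b => u.p.π_add ((h _).2 a.2) ((h _).2 b.2) }
      ker := fun x => (h.π_eq_iff x.2).trans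
        (by simpa using (v_rz_lt_iff v hv.triv (x := x.1) (y := 1)).symm)
      ov := fun c => ⟨c, u.p.π_alg c⟩ }
  have h2 := Cyc.dim_pl M.S hd D (p := p) (fun c => (p.r_eq (hv.triv c)).trans (u.p.π_alg c))
    hD.symm fun g => (hs g).elim fun f hf => ⟨⟨f, (h f).1 hf.1⟩, hf.2⟩
  exact (congrArg (· + 1) h2).trans hd.symm

theorem birIm (hv : IsPD Y.P v) (hs : ∀ g, ∃ f ∈ u.p.O, u.p.π f = g) : BirIm u := fun x g => by
  obtain ⟨f, hf, rfl⟩ := hs g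
  obtain ⟨c, hc, h1, h2⟩ := (hv.loc_lp (h.on x)).den f ((h f).1 hf)
  exact ⟨_, h2, c, hc, h.π_ne_iff.2 h1, by rw [u.p.π_mul (u.mem_O hc) hf, mul_comm]⟩

theorem isPr (hv : IsPD Y.P v) (hs : ∀ g, ∃ f ∈ u.p.O, u.p.π f = g) : IsPr u :=
  ⟨h.birIm hv hs, h.dim_eq hv hs⟩

end Val

/-- a place which induces the centre of a prime divisor is this prime divisor -/
theorem val_of_ker {u : Hom X Y} {v : Valuation Y.F ℤᵐ⁰} (hv : IsPD Y.P v) {x : X.Pt}
    (hx : On v (u.map x)) (h : ∀ f ∈ (lp (u.map x)).O, u.p.π f = 0 ↔ v f < 1) : Val u v := by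
  have h1 : ∀ f, v f ≤ 1 → f ∈ u.p.O ∧ (v f < 1 → u.p.π f = 0) := fun f hf => by
    obtain ⟨c, hc, h2, h3⟩ := (hv.loc_lp hx).den f hf
    have h4 : u.p.π c ≠ 0 := fun h0 => ((h c hc).1 h0).ne h2
    have h5 := Plc.div_mem (u.mem_O h3) h4
    rw [mul_div_cancel_left₀ _ (Plc.ne_zero_of_ne h4)] at h5
    refine ⟨h5, fun h6 => ?_⟩
    have h7 := (h _ h3).2 (by rwa [map_mul, h2, one_mul])
    rw [u.p.π_mul (u.mem_O hc) h5] at h7
    exact (mul_eq_zero.1 h7).resolve_left h4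
  refine fun f => ⟨fun hf => not_lt.1 fun h2 => ?_, fun hf => (h1 f hf).1⟩
  have h3 : f ≠ 0 := fun h0 => by simp [h0] at h2
  have h4 : v f⁻¹ < 1 := by rw [map_inv₀]; exact inv_lt_one_of_one_lt₀ h2
  have h5 := u.p.π_mul hf (h1 _ h4.le).1
  rw [mul_inv_cancel₀ h3, (h1 _ h4.le).2 h4, mul_zero, u.p.π_one] at h5
  exact one_ne_zero h5

theorem _root_.Crest.Agent.X262.Coh.IsDv.val {j : Hom X Y} {a : BD ℂ Y.F} (h : IsDv j a) :
    ∃ v, IsPD Y.P v ∧ Val j v := by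
  obtain ⟨x⟩ : Nonempty X.Pt := inferInstance
  obtain ⟨t, h1, h2, h3⟩ := h.eqn x
  have h0 : t ≠ 0 := fun h0 => h2.ne (by rw [h0, inv_zero])
  have h4 : j.p.π t = 0 := (h3 t h1).2 (by rw [div_self h0]; exact one_mem _)
  obtain ⟨e, h5, h6⟩ := (Link.ev_eq_zero_iff h1 h0).1 (by
    rw [j.ev_map h1, h4]; exact LP.v_zero _)
  obtain ⟨s, hs⟩ := e.2.exists_eqn h5
  have h7 := hs.div t h1 h6
  have h8 : j.p.π s = 0 := by
    have h9 := j.p.π_mul (j.mem_O hs.mem) (j.mem_O h7)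
    rw [mul_div_cancel₀ _ hs.ne, h4] at h9
    refine (mul_eq_zero.1 h9.symm).resolve_right fun h10 => ?_
    have h11 := h5 _ ((h3 _ h7).1 h10)
    rw [div_right_comm, div_self h0, Link.v_div_le hs.ne, map_one] at h11
    exact h11.not_gt hs.lt
  refine ⟨e.1, e.2, val_of_ker e.2 h5 fun f hf => ⟨fun h9 => ?_, fun h9 => ?_⟩⟩
  · exact ((Link.v_div_le h0).1 (h5 _ ((h3 f hf).1 h9))).trans_lt h6
  · have h10 := j.p.π_mul (j.mem_O hs.mem) (j.mem_O (hs.div f hf h9))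
    rwa [mul_div_cancel₀ _ hs.ne, h8, zero_mul] at h10

theorem _root_.Crest.Agent.X262.Coh.IsDv.isPr {j : Hom X Y} {a : BD ℂ Y.F} (h : IsDv j a) :
    IsPr j := h.val.elim fun _ hv => hv.2.isPr hv.1 h.emb.birIm.surj

/-- a smooth divisor has codimension one -/
theorem _root_.Crest.Agent.X262.Coh.IsDv.dim_eq {j : Hom X Y} {a : BD ℂ Y.F} (h : IsDv j a) :
    X.dim + 1 = Y.dim := h.isPr.2

theorem bim_id {F : Type} [Field F] [Algebra ℂ F] {P Q : PModel ℂ F} {μ : Hom (sv P) (sv Q)}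
    (h : μ.p = Plc.ofHom (AlgHom.id ℂ F)) : Bim μ := ⟨_, h, Function.surjective_id⟩

/-- **finitely many b-divisors are sums of smooth divisors on a higher model** -/
theorem exists_snc (A : SV) (s : Finset (BD ℂ A.F)) :
    ∃ (M : PModel ℂ A.F) (π : Hom (sv M) A), π.p = Plc.ofHom (AlgHom.id ℂ A.F) ∧
      ∃ (ι : Type) (_ : Fintype ι) (G : ι → SV) (v : ∀ i, Hom (G i) (sv M)) (e : ι → BD ℂ A.F),
        (∀ i, IsDv (v i) (e i)) ∧ (∀ i, (G i).dim + 1 = A.dim) ∧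
        ∀ a ∈ s, a ∈ Br.On M ∧ ∃ m : ι → ℤ, a = ∑ i, m i • e i ∧ (0 ≤ a → ∀ i, 0 ≤ m i) ∧
          ∀ i q, At a ((v i).map q) 1 → m i = 0 := by
  classical
  obtain ⟨b⟩ := exists_basis A.P
  choose 𝒢 h1 using fun a : BD ℂ A.F => Up.exists_fam (n := A.dim) a
  obtain ⟨M, B, h⟩ := Res.Log.exists_logRes' b A.P (s.biUnion 𝒢)
  choose G v h8 h9 using exists_comp B
  refine ⟨M, h.isoOff.mor, rfl, B.ι, inferInstance, G, v, _, h8, fun i => (h8 i).dim_eq,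
    fun a ha => ?_⟩
  obtain ⟨h2, h3⟩ := h1 a (Up.logRes_mono h (Finset.subset_biUnion_of_mem 𝒢 ha))
  refine ⟨h2, fun e => od B e a, (eq_dvs h2 h3).trans (dvs_eq_sum B _), fun h0 _ => od_nonneg h0,
    fun i q hq => ?_⟩
  change od B i a = 0
  rw [od_of_at hq (Val.on (h9 i) q), Res.Out.ord_one, neg_zero]

/-- **every prime divisor has a smooth model** -/
theorem exists_pr {v : Valuation Y.F ℤᵐ⁰} (hv : IsPD Y.P v) :
    ∃ (E : SV) (u : Hom E Y), Val u v ∧ IsPr u := by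
  obtain ⟨b⟩ := exists_basis Y.P
  obtain ⟨t, ht⟩ := hv.nrm
  obtain ⟨M, B, h⟩ := Res.Log.exists_logRes' b Y.P {{t}}
  obtain ⟨e, he⟩ := Up.exists_lab h.isoOff hv (h.mon {t} (by simp) t (by simp)
    (Link.ne_zero_of_v ht)) (ht ▸ Link.exp_neg_one_lt.ne)
  obtain ⟨G, u, h1, h2⟩ := exists_comp B e
  have h3 : Val (X := G) (Y := Y) (Mor.comp h.isoOff.mor u) v := fun f =>
    ⟨fun hf => he ▸ (h2 f).1 hf.2, fun hf => ⟨Algebra.mem_top, (h2 f).2 (he ▸ hf)⟩⟩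
  exact ⟨G, _, h3, h3.isPr hv fun g => (h1.emb.birIm.surj g).imp fun _ hf =>
    ⟨⟨Algebra.mem_top, hf.1⟩, hf.2⟩⟩

/-! ### the locus where a morphism is an isomorphism -/

/-- `h` is a local isomorphism (an immersion) at `w` -/
def Iso (h : Hom W Y) (w : W.Pt) : Prop :=
  ∀ g ∈ (lp w).O, ∃ f ∈ (lp (h.map w)).O, h.p.π f = g

variable {h : Hom W Y} {w w' : W.Pt}

theorem iso_of_y {i : Fin (W.P.N + 1)} (hi : w ∈ pat W.P i)
    (h1 : ∀ j, ∃ f ∈ (lp (h.map w)).O, h.p.π f = W.P.y j / W.P.y i) : Iso h w := by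
  have h2 : ∀ a ∈ W.P.A i, ∃ f ∈ (lp (h.map w)).O, h.p.π f = a := fun a ha => by
    refine Algebra.adjoin_induction (p := fun a _ => ∃ f ∈ (lp (h.map w)).O, h.p.π f = a)
      ?_ (fun c => ⟨_, algebraMap_mem _ c, h.p.π_alg c⟩) ?_ ?_ ha
    · rintro _ ⟨j, rfl⟩
      exact h1 j
    · rintro _ _ - - ⟨f, hf, rfl⟩ ⟨g, hg, rfl⟩
      exact ⟨_, add_mem hf hg, h.p.π_add (h.mem_O hf) (h.mem_O hg)⟩
    · rintro _ _ - - ⟨f, hf, rfl⟩ ⟨g, hg, rfl⟩
      exact ⟨_, mul_mem hf hg, h.p.π_mul (h.mem_O hf) (h.mem_O hg)⟩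
  intro g hg
  obtain ⟨a, ha, c, hc, h0, h3⟩ := (mem_lp_iff hi).1 hg
  obtain ⟨a, ha', rfl⟩ := h2 a ha
  obtain ⟨c, hc', rfl⟩ := h2 c hc
  have h4 := LP.ne_zero_of_ne h0
  rw [← h.ev_map hc'] at h0
  exact ⟨a / c, LP.div_mem ha' h0, by
    rw [Plc.π_div (h.mem_O ha') h4, ← h3, mul_div_cancel_right₀ _ h4]⟩

theorem res_iso (g : Hom G W) {q₀ : G.Pt} (h0 : Iso h (g.map q₀)) :
    ∀ᶠ q in residual G.Pt, Iso h (g.map q) := by
  obtain ⟨i, hi⟩ := exists_pat (g.map q₀)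
  choose f h1 h2 using fun j => h0 _ (y_mem hi j)
  filter_upwards [res_pat g fun j => g.mem_O (y_mem hi j), eventually_all.2 fun j =>
    res_mem' (Mor.comp h g) q₀ (f := f j) (by rw [Mor.comp_map]; exact h1 j)] with q h3 h4
  exact iso_of_y h3 fun j => ⟨f j, by rw [← Mor.comp_map]; exact h4 j, h2 j⟩

theorem eq_of_iso (h0 : Iso h w) (h1 : h.map w = h.map w') : w = w' := by
  refine eq_of_dom (L := lp w') ⟨fun g hg => ?_, fun g hg => ?_⟩ (Cns.dom_refl _)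
  · obtain ⟨f, hf, rfl⟩ := h0 g hg
    exact h.π_mem (h1 ▸ hf)
  · obtain ⟨f, hf, rfl⟩ := h0 g hg
    exact (h.ev_map (h1 ▸ hf)).symm.trans (h1 ▸ h.ev_map hf)

/-- two different morphisms with the same image land in the exceptional locus -/
theorem not_iso_of_ne {g₁ g₂ : Hom G W} (h1 : (Mor.comp h g₁).map = (Mor.comp h g₂).map)
    (hne : g₁.map ≠ g₂.map) (q : G.Pt) : ¬ Iso h (g₁.map q) := fun h0 => by
  obtain ⟨z, h2, h3⟩ := res_exists (res_iso g₁ h0) (isOpen_ne_fun g₁.continuous g₂.continuous)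
    (Function.ne_iff.1 hne)
  exact h2 (eq_of_iso h3 (by rw [← Mor.comp_map, h1, Mor.comp_map]))

/-- a birational morphism is an isomorphism at some point -/
theorem _root_.Crest.Agent.X262.Coh.Bim.res_iso (hh : Bim h) :
    ∀ᶠ w in residual W.Pt, Iso h w := by
  obtain ⟨α, h1, h2⟩ := hh
  choose f hf using fun j => h2 (W.P.y j / W.P.y 0)
  choose a ha c hc h0 h3 using fun j => Y.P.frac (f j)
  have h4 : ∀ z, z ∈ h.p.O := fun z => h1 ▸ Algebra.mem_top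
  filter_upwards [eventually_all.2 fun j => res_reg (Q := W.P) (W.P.y j / W.P.y 0),
    res_pat h fun j => h4 (Y.P.y j / Y.P.y 0),
    eventually_all.2 fun j => res_ev (Q := W.P) ((map_ne_zero α).2 (h0 j))] with w h5 h6 h7
  refine iso_of_y (mem_pat_of_mem h5) fun j => ⟨f j, ?_, by rw [h1]; exact hf j⟩
  rw [h3 j]
  exact LP.div_mem (A_le h6 (ha j)) ((Cns.hom_ev h1 (A_le h6 (hc j))).symm.trans_ne (h7 j))

theorem _root_.Crest.Agent.X262.Coh.Bim.not_dmn (hh : Bim h) {g : Hom G W}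
    (hg : ∀ q, ¬ Iso h (g.map q)) : ¬ Dmn g := fun h0 => by
  obtain ⟨w, -, hw⟩ := res_exists hh.res_iso isOpen_univ univ_nonempty
  obtain ⟨q, rfl⟩ := dmn_iff.1 h0 w
  exact hg q hw

end Crest.Agent.X262.Form88
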