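import Crest.Agent.X262.Coh.Basic
import Crest.Agent.X262.Form88.Pur
import Crest.Agent.X262.FG.Basic
import Crest.Agent.X277.Strat.StD
import Crest.Agent.X277.Up.B

/-!
# Row 262, FORM (helper88), part 2: the geometric input of base change

* `dmn_iff`     : dominant means onto; `pmap_map`, `Dmn.pmap`;
* `exists_lift` : a morphism into the image of an embedding factors;
* `exists_comp` : the components of an snc boundary are smooth divisors;
* `exists_bc`   : a dominant rational map has a resolution on which the pull-back of a smooth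
  divisor is a sum of smooth divisors.
-/

set_option autoImplicit false

open Set Filter Topology WithZero

noncomputable section

namespace Crest.Agent.X262.Form88

open Crest.Agent.X277 Crest.Agent.X277.Lef Crest.Agent.X277.AN.G1 Crest.Agent.X277.BD
open Crest.Agent.X277.BD.Br (At oP)
open Crest.Agent.X277.Res.Log (On Bd)
open Crest.Agent.X277.Strat.Fac (toG two_pt un_plc)
open Crest.Agent.X262.Coh Crest.Agent.X262.FG
open Crest.Agent.R274.Prod1_134 (isPF)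

variable {X Y Z X' Y' : SV}

/-! ### dominant morphisms -/

theorem dmn_of_surj {μ : Hom X Y} (h : Function.Surjective μ.map) : Dmn μ := by
  have h1 : ∀ y : Y.Pt, (lp y).O ≤ μ.p.O := fun y => (h y).elim fun x hx => hx ▸ le_map μ x
  have h2 : ∀ f, f ∈ μ.p.O := fun f => by
    obtain ⟨a, ha, c, hc, h0, rfl⟩ := Y.P.frac f
    obtain ⟨y, hy, h3⟩ := exists_ev_ne (i := 0) hc h0
    exact Plc.div_mem (h1 y (A_le hy ha)) (π_ne μ (h1 y) h3)
  refine ⟨⟨⟨⟨⟨μ.p.π, μ.p.π_one⟩, fun f g => μ.p.π_mul (h2 f) (h2 g)⟩, μ.p.π_zero,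
    fun f g => μ.p.π_add (h2 f) (h2 g)⟩, μ.p.π_alg⟩, ?_⟩
  have h3 : μ.p.O = ⊤ := eq_top_iff.2 fun f _ => h2 f
  generalize μ.p = p at *
  cases p
  dsimp only at h3
  subst h3
  rfl

theorem dmn_iff {μ : Hom X Y} : Dmn μ ↔ Function.Surjective μ.map :=
  ⟨fun ⟨_, h⟩ => Cns.hom_surjective h, dmn_of_surj⟩

theorem fst_pair (μ : Hom Z X) (ν : Hom Z Y) (z : Z.Pt) :
    (fst X Y).map ((pair μ ν).map z) = μ.map z := by rw [Cns.pair_map, Cns.fst_mk]

theorem snd_pair (μ : Hom Z X) (ν : Hom Z Y) (z : Z.Pt) :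
    (snd X Y).map ((pair μ ν).map z) = ν.map z := by rw [Cns.pair_map, Cns.snd_mk]

theorem fst_pmap (μ : Hom X X') (ν : Hom Y Y') (z : (X.prod Y).Pt) :
    (fst X' Y').map ((pmap μ ν).map z) = μ.map ((fst X Y).map z) := by
  rw [fst_pair, Mor.comp_map]

theorem snd_pmap (μ : Hom X X') (ν : Hom Y Y') (z : (X.prod Y).Pt) :
    (snd X' Y').map ((pmap μ ν).map z) = ν.map ((snd X Y).map z) := by
  rw [snd_pair, Mor.comp_map]

theorem mem_range_dia {z : (X.prod X).Pt} :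
    z ∈ range (dia X).map ↔ (fst X X).map z = (snd X X).map z := by
  refine ⟨?_, fun h => ⟨(fst X X).map z, Cns.prod_pt_ext (isPF ℂ X.F X.F) ?_ ?_⟩⟩
  · rintro ⟨x, rfl⟩
    rw [fst_pair, snd_pair]
  · rw [fst_pair, Cns.idM_map]
  · rw [snd_pair, Cns.idM_map, h]

theorem _root_.Crest.Agent.X262.Coh.Dmn.pmap {μ : Hom X X'} {ν : Hom Y Y'} (h : Dmn μ)
    (h' : Dmn ν) : Dmn (pmap μ ν) := dmn_of_surj fun z => by
  obtain ⟨x, hx⟩ := dmn_iff.1 h ((fst X' Y').map z)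
  obtain ⟨y, hy⟩ := dmn_iff.1 h' ((snd X' Y').map z)
  refine ⟨Cns.mk (isPF ℂ X.F Y.F) x y, Cns.prod_pt_ext (isPF ℂ X'.F Y'.F) ?_ ?_⟩
  · rw [fst_pmap, Cns.fst_mk, hx]
  · rw [snd_pmap, Cns.snd_mk, hy]

/-- morphisms with the same place have the same map -/
theorem map_congr {μ ν : Hom X Y} (h : ∀ x, ∀ f ∈ (lp (μ.map x)).O, f ∈ ν.p.O ∧ ν.p.π f = μ.p.π f) :
    ν.map = μ.map := funext fun x => ν.map_eq
  ⟨fun f hf => ⟨(h x f hf).1, (h x f hf).2 ▸ μ.π_mem hf⟩, fun f hf => by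
    rw [LP.comap_v, (h x f hf).2]
    exact (μ.ev_map hf).symm⟩

/-! ### embeddings -/

theorem eq_zero_of_res {φ : X.F} (h : ∀ᶠ q in residual X.Pt, ev φ q = 0) : φ = 0 := by
  by_contra h0
  obtain ⟨q, -, h1, h2⟩ := res_exists (h.and (res_ev h0)) isOpen_univ univ_nonempty
  exact h2 h1

/-- **a morphism into the image of an embedding factors through it** -/
theorem exists_lift {D G : SV} {j : Hom D X} (hj : IsEmb j) (g : Hom G X)
    (h : ∀ q, g.map q ∈ range j.map) : ∃ w : Hom G D, (Mor.comp j w).map = g.map := by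
  choose x hx using h
  obtain ⟨q₀⟩ : Nonempty G.Pt := inferInstance
  have h1 : ∀ q, (lp (g.map q)).O ≤ j.p.O := fun q => hx q ▸ le_map j (x q)
  have h2 : ∀ f ∈ (lp (g.map q₀)).O, j.p.π f = 0 → g.p.π f = 0 := fun f hf h0 =>
    eq_zero_of_res ((res_mem' g q₀ hf).mono fun q hq => by
      rw [← g.ev_map hq, ← hx q, j.ev_map (hx q ▸ hq), h0]
      exact LP.v_zero _)
  let ρ : (lp (g.map q₀)).O →ₐ[ℂ] (lp (x q₀)).O :=
    (j.p.hom.comp (Subalgebra.inclusion (h1 q₀))).codRestrict _ fun f =>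
      j.π_mem (by rw [hx q₀]; exact f.2)
  have hρ : Function.Surjective ρ := fun z => by
    obtain ⟨f, h3, h4⟩ := hj.2 (x q₀) z z.2
    exact ⟨⟨f, hx q₀ ▸ h3⟩, Subtype.ext h4⟩
  let ψ : (lp (x q₀)).O →ₐ[ℂ] G.F := (Ideal.Quotient.liftₐ (RingHom.ker ρ)
    (g.p.hom.comp (Subalgebra.inclusion (le_map g q₀))) fun f hf =>
      h2 f f.2 (congrArg Subtype.val hf)).comp (Ideal.quotientKerAlgEquivOfSurjective hρ).symm
  have h3 : ∀ f, ψ (ρ f) = g.p.π f := fun f => by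
    have h4 : (Ideal.quotientKerAlgEquivOfSurjective hρ).symm (ρ f) = Ideal.Quotient.mk _ f := by
      rw [AlgEquiv.symm_apply_eq]
      rfl
    simp only [ψ, AlgHom.comp_apply, AlgEquiv.coe_toAlgHom, h4]
    rfl
  have h4 : ∀ q, ∀ f ∈ (lp (g.map q)).O,
      j.p.π f ∈ (plcAt ψ).O ∧ (plcAt ψ).π (j.p.π f) = g.p.π f := by
    intro q f hf
    obtain ⟨a, ha, c, hc, h5, h6⟩ := two_pt (le_map g q) (le_map g q₀) hf
    have h7 : ψ (ρ ⟨c, hc⟩) ≠ 0 := h3 ⟨c, hc⟩ ▸ un_plc.1 h5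
    have h8 : j.p.π f * (ρ ⟨c, hc⟩ : D.F) = ρ ⟨a, ha⟩ :=
      (j.p.π_mul (h1 q hf) (h1 q₀ hc)).symm.trans (congrArg j.p.π h6)
    have h9 : j.p.π f ∈ (plcAt ψ).O := ⟨_, _, h7, h8⟩
    refine ⟨h9, mul_right_cancel₀ h7 ?_⟩
    have h10 := (plcAt ψ).π_mul h9 (le_plcAt ψ (ρ ⟨c, hc⟩).2)
    rw [h8, plcAt_π, plcAt_π] at h10
    rw [← h10, h3, h3, ← g.p.π_mul (le_map g q hf) (le_map g q₀ hc), h6]
  refine ⟨⟨plcAt ψ, fun q => ?_⟩, map_congr fun q f hf => ⟨⟨h1 q hf, (h4 q f hf).1⟩, (h4 q f hf).2⟩⟩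
  obtain ⟨i, hi⟩ := exists_pat (x q)
  refine ⟨i, fun l => ?_⟩
  obtain ⟨f, h5, h6⟩ := hj.2 (x q) _ (y_mem hi l)
  rw [hx q] at h5
  rw [← h6]
  exact ⟨(h4 q f h5).1, (h4 q f h5).2 ▸ g.π_mem h5⟩

theorem _root_.Crest.Agent.X262.Coh.IsDv.on {D : SV} {j : Hom D X} {a : BD ℂ X.F} (h : IsDv j a) :
    a ∈ X.On := fun y => by
  by_cases hy : y ∈ range j.map
  · obtain ⟨x, rfl⟩ := hy
    obtain ⟨t, -, h1, -⟩ := h.eqn x
    exact ⟨_, h1⟩
  · exact ⟨1, h.off y hy⟩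

theorem _root_.Crest.Agent.X262.Coh.IsDv.nonneg {D : SV} {j : Hom D X} {a : BD ℂ X.F}
    (h : IsDv j a) : 0 ≤ a := Br.le_of_at (P := X.P) fun y => by
  by_cases hy : y ∈ range j.map
  · obtain ⟨x, rfl⟩ := hy
    obtain ⟨t, h0, h1, -⟩ := h.eqn x
    exact ⟨1, _, Br.at_zero _, h1, by simpa using h0⟩
  · exact ⟨1, 1, Br.at_zero _, h.off y hy, by simp⟩

/-! ### components of a boundary -/

section Comp

variable {F : Type} [Field F] [Algebra ℂ F] {P : PModel ℂ F} {n : ℕ}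

open Classical in
theorem exists_comp (B : Bd P n) (e : B.ι) : ∃ (G : SV) (v : Hom G (sv P)),
    IsDv v (dvs B (Pi.single e 1)) ∧ ∀ f, f ∈ v.p.O ↔ B.v e f ≤ 1 := by
  obtain ⟨κ, _, _, p, hp⟩ := Strat.Fac.exists_plc_bd (B := B) e
  have h0 : ∀ f, f ∈ (toG p).O ↔ B.v e f ≤ 1 := fun f => hp ▸ Iff.rfl
  have h1 : ∀ x : Pts P, (lp x).O ≤ (toG p).O ↔ On (B.v e) x := fun x =>
    ⟨fun h f hf => (h0 f).1 (h hf), fun h f hf => (h0 f).2 (h f hf)⟩
  have h2 : ∀ e', Strat.Fac.In B (toG p) e' ↔ e' = e := fun e' =>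
    ⟨fun h => (B.v_injective ((B.isPD e).nrm.eq_of_le (B.isPD e').nrm fun f hf =>
      h f ((h0 f).2 hf))).symm, fun h f hf => h ▸ (h0 f).1 hf⟩
  have h3 : ∀ x : Pts P, On (B.v e) x → ∀ f ∈ (lp x).O,
      (toG p).π f = 0 ↔ f / B.τ e x ∈ (lp x).O := fun x hx f hf => by
    rw [Strat.Fac.toG_π, p.r_eq_zero (hp ▸ hx f hf), hp]
    exact (Link.bd_eqn B hx).lt_iff hf
  have h4 : Strat.Fac.Pl B (toG p) (n - 1) := by
    refine ⟨p.exists_r, (B.ne e).imp fun x => (h1 x).2, ?_, fun x hx f hf => ?_,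
      fun x hx f hf h => ⟨Pi.single e (f / B.τ e x), fun e' => ?_, fun e' he => ?_, ?_⟩⟩
    · obtain ⟨x, hx⟩ := B.ne e
      obtain ⟨t, σ, -⟩ := B.snc x
      have h5 := (σ ⟨e, hx⟩).pos
      have h6 : Nat.card {e' // Strat.Fac.In B (toG p) e'} = 1 :=
        Nat.card_eq_one_iff_unique.2 ⟨⟨fun a b => Subtype.ext (((h2 _).1 a.2).trans
          ((h2 _).1 b.2).symm)⟩, ⟨⟨e, (h2 e).2 rfl⟩⟩⟩
      omega
    · obtain ⟨c, hc, h5, h6⟩ := ((B.isPD e).loc_lp ((h1 x).1 hx)).den f ((h0 f).1 hf)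
      exact ⟨_, h6, c, hc, p.r_ne_zero (hp ▸ h5), mul_comm _ _⟩
    · rw [Pi.single_apply]
      split_ifs
      exacts [(h3 x ((h1 x).1 hx) f hf).1 h, zero_mem _]
    · exact Pi.single_eq_of_ne (mt (h2 e').2 he) _
    · simp [Pi.single_apply, B.τ_ne]
  obtain ⟨P', hm⟩ := h4.exists_mdl
  refine ⟨sv P', hm.mor, ⟨⟨fun x x' h => (hm.ov x).eq_up (h ▸ hm.ov x'), fun x => (hm.ov x).surj⟩,
    fun y hy => ?_, fun x => ?_⟩, h0⟩
  · have h5 := at_dvs B (Pi.single e 1) y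
    rwa [Strat.Fac.mon_eq_one fun e' he' => Pi.single_eq_of_ne (fun h : e' = e => hy
      (mem_range hm.mor ((h1 y).2 (h ▸ he')))) _, inv_one] at h5
  · have h5 := at_dvs B (Pi.single e 1) (hm.mor.map x)
    rw [Strat.Fac.mon_single (Pi.single_eq_same e 1) fun e' _ h => Pi.single_eq_of_ne h _] at h5
    exact ⟨_, B.τ_mem e _, h5, h3 _ ((h1 _).1 (hm.ov x).le)⟩

end Comp

/-- **the input of `BC1`** for a dominant rational map `α : A ⇢ X` -/
theorem exists_bc {A D : SV} {j : Hom D X} {a : BD ℂ X.F} (hj : IsDv j a) (α : X.F →ₐ[ℂ] A.F) :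
    ∃ (M : PModel ℂ A.F) (π : Hom (sv M) A) (u : Hom (sv M) X),
      π.p = Plc.ofHom (AlgHom.id ℂ A.F) ∧ u.p = Plc.ofHom α ∧
      ∃ (ι : Type) (_ : Fintype ι) (G : ι → SV) (v : ∀ i, Hom (G i) (sv M)) (e : ι → BD ℂ A.F)
        (m : ι → ℕ) (w : ∀ i, Hom (G i) D), (∀ i, IsDv (v i) (e i)) ∧ DPb u a (∑ i, m i • e i) ∧
        ∀ i, (Mor.comp j (w i)).map = (Mor.comp u (v i)).map := by
  classical
  obtain ⟨b⟩ := exists_basis A.P
  obtain ⟨𝒢, h1⟩ := Up.exists_fam (n := Module.finrank A.F Ω[A.F⁄ℂ]) (pb α X.h)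
  obtain ⟨𝒢', h2⟩ := Up.exists_fam (n := Module.finrank A.F Ω[A.F⁄ℂ]) (pb α a)
  obtain ⟨M, B, h⟩ := Res.Log.exists_logRes' b A.P (𝒢 ∪ 𝒢')
  have h3 : pb α X.h ∈ Br.On M := (h1 (Up.logRes_mono h Finset.subset_union_left)).1
  obtain ⟨h4, h5⟩ := h2 (Up.logRes_mono h Finset.subset_union_right)
  have h6 := eq_dvs (B := B) h4 h5
  have h7 : ∀ e, 0 ≤ od B e (pb α a) := fun e => od_nonneg (pb_nonneg_iff.2 hj.nonneg)
  choose G v h8 h9 using exists_comp B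
  let u : Hom (sv M) X := Br.morOf α h3
  have h10 : ∀ e, od B e (pb α a) ≠ 0 → ∀ q, (Mor.comp u (v e)).map q ∈ range j.map := by
    intro e he q
    by_contra hc
    rw [Mor.comp_map] at hc
    have h11 := od_of_at ((hj.off _ hc).pb (Br.morOf_p α h3))
      fun f hf => (h9 e f).1 (le_map (v e) q hf)
    rw [map_one, Res.Out.ord_one, neg_zero] at h11
    exact he h11
  choose w hw using fun e : {e // od B e (pb α a) ≠ 0} => exists_lift hj.emb _ (h10 e.1 e.2)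
  refine ⟨M, Cns.morHom (AlgHom.id ℂ A.F) h.dom, u, rfl, rfl, {e // od B e (pb α a) ≠ 0},
    inferInstance, fun e => G e.1,
    fun e => v e.1, fun e => dvs B (Pi.single e.1 1), fun e => (od B e.1 (pb α a)).toNat, w,
    fun e => h8 e.1, fun x g hg => ?_, hw⟩
  have h11 : ∑ e : {e // od B e (pb α a) ≠ 0}, (od B e.1 (pb α a)).toNat • dvs B (Pi.single e.1 1)
      = pb α a := by
    conv_rhs => rw [h6, dvs_eq_sum]
    rw [← Finset.sum_filter_of_ne (p := fun e => od B e (pb α a) ≠ 0) fun e _ he h0 =>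
      he (by rw [h0, zero_smul]), Finset.sum_subtype (p := fun e => od B e (pb α a) ≠ 0) _ (by simp)]
    exact Finset.sum_congr rfl fun e _ => by rw [← natCast_zsmul, Int.toNat_of_nonneg (h7 e.1)]
  rw [h11, div_one]
  exact hg.pb (Br.morOf_p α h3)

end Crest.Agent.X262.Form88
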