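import Crest.Agent.X262.Form88.Main

/-!
# Row 262, FORM (helper88), part 7: fibre products and `Dom`

* `exists_eq_cov` : the set where two morphisms agree is a finite union of images;
* `exists_fib`    : a component of the fibre product which dominates the first factor;
* `dom`           : vanishing of a pull-back depends only on the image.
-/

set_option autoImplicit false

open Set Filter Topology WithZero

noncomputable section

namespace Crest.Agent.X262.Form88

open Crest.Agent.X277 Crest.Agent.X277.Lef Crest.Agent.X277.AN.G1 Crest.Agent.X277.BD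
open Crest.Agent.X277.Res.Log (On)
open Crest.Agent.X277.Link (IsPD)
open Crest.Agent.X262.Coh

variable {C : Th} {A B V G : SV}

/-- two different morphisms agree only on finitely many prime divisors -/
theorem exists_pd_of_ne {p q : Hom G V} (h : p.map ≠ q.map) :
    ∃ S : Set (Valuation G.F ℤᵐ⁰), S.Finite ∧ (∀ v ∈ S, IsPD G.P v) ∧
      ∀ z, p.map z = q.map z → ∃ v ∈ S, On v z := by
  let φ := fun i j => p.p.π (V.P.y j / V.P.y i) - q.p.π (V.P.y j / V.P.y i)
  refine ⟨⋃ i, ⋃ j, ⋃ (_ : φ i j ≠ 0), {v | IsPD G.P v ∧ v (φ i j) ≠ 1}, finite_iUnion fun i =>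
    finite_iUnion fun j => finite_iUnion fun h => Link.finite_isPD G.P h, fun v hv => ?_,
    fun z hz => ?_⟩
  · simp only [mem_iUnion] at hv
    obtain ⟨_, _, _, hv⟩ := hv
    exact hv.1
  obtain ⟨i, hi⟩ := exists_pat (p.map z)
  have hi' : q.map z ∈ pat V.P i := hz ▸ hi
  obtain ⟨j, hj⟩ : ∃ j, φ i j ≠ 0 := by
    by_contra hc
    obtain ⟨w, h1, h2, h3⟩ := res_exists ((res_pat p fun j => p.mem_O (y_mem hi j)).and
      (res_pat q fun j => q.mem_O (y_mem hi' j))) (isOpen_ne_fun p.continuous q.continuous)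
      (Function.ne_iff.1 h)
    refine h1 (pt_ext h2 h3 fun j => ?_)
    rw [p.ev_map (y_mem h2 j), q.ev_map (y_mem h3 j),
      sub_eq_zero.1 (not_not.1 fun h4 => hc ⟨j, h4⟩ : φ i j = 0)]
  have h1 := p.π_mem (y_mem hi j)
  have h2 := q.π_mem (y_mem hi' j)
  obtain ⟨e, h3, h4⟩ := (Link.ev_eq_zero_iff (sub_mem h1 h2) hj).1 (by
    refine (LP.v_sub h1 h2).trans (sub_eq_zero.2 ?_)
    exact (p.ev_map (y_mem hi j)).symm.trans (by rw [hz]; exact q.ev_map (y_mem hi' j)))
  exact ⟨e.1, mem_iUnion.2 ⟨i, mem_iUnion.2 ⟨j, mem_iUnion.2 ⟨hj, e.2, h4.ne⟩⟩⟩, h3⟩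

/-- **the set where two morphisms agree is a finite union of images** -/
theorem exists_eq_cov (p q : Hom G V) : ∃ (ι : Type) (_ : Finite ι) (D : ι → SV)
    (t : ∀ i, Hom (D i) G), (∀ i z, p.map ((t i).map z) = q.map ((t i).map z)) ∧
      ∀ z, p.map z = q.map z → ∃ i, z ∈ range (t i).map := by
  induction hd : G.dim using Nat.strong_induction_on generalizing G with | _ n ih => ?_
  by_cases h : p.map = q.map
  · exact ⟨Unit, inferInstance, fun _ => G, fun _ => idH G, fun _ _ => by rw [h],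
      fun z _ => ⟨(), z, Cns.idM_map z⟩⟩
  obtain ⟨S, h1, h2, h3⟩ := exists_pd_of_ne h
  have := h1.to_subtype
  choose E u h4 h5 using fun v : S => exists_pr (h2 v.1 v.2)
  choose ι h6 D t h7 h8 using fun v : S => ih (E v).dim (by rw [← hd, ← (h5 v).2]; omega)
    (Mor.comp p (u v)) (Mor.comp q (u v)) rfl
  refine ⟨Σ v, ι v, inferInstance, fun i => D i.1 i.2, fun i => Mor.comp (u i.1) (t i.1 i.2),
    fun i z => by simpa only [Mor.comp_map] using h7 i.1 i.2 z, fun z hz => ?_⟩
  obtain ⟨v, hv, h9⟩ := h3 z hz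
  obtain ⟨w, rfl⟩ := (h4 ⟨v, hv⟩).mem_range.2 h9
  obtain ⟨i, x, rfl⟩ := h8 ⟨v, hv⟩ w (by simpa only [Mor.comp_map] using hz)
  exact ⟨⟨_, i⟩, x, Mor.comp_map _ _ _⟩

/-- **a component of the fibre product dominates the first factor** -/
theorem exists_fib (g : Hom A V) (v : Hom B V) (h : range g.map ⊆ range v.map) :
    ∃ (G : SV) (a : Hom G A) (b : Hom G B), Dmn a ∧ (Mor.comp g a).map = (Mor.comp v b).map := by
  obtain ⟨ι, _, D, t, h1, h2⟩ := exists_eq_cov (Mor.comp g (fst A B)) (Mor.comp v (snd A B))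
  obtain ⟨i, -, hi⟩ := exists_range (idH A) finite_univ (fun i => Mor.comp (fst A B) (t i))
    (Eventually.of_forall fun x => by
      obtain ⟨y, hy⟩ := h ⟨x, rfl⟩
      obtain ⟨i, z, hz⟩ := h2 (Cns.mk _ x y) (by
        rw [Mor.comp_map, Mor.comp_map, Cns.fst_mk, Cns.snd_mk, hy])
      exact ⟨i, trivial, z, by rw [Mor.comp_map, hz, Cns.fst_mk, Cns.idM_map]⟩)
  exact ⟨_, Mor.comp (fst A B) (t i), Mor.comp (snd A B) (t i),
    dmn_of_surj fun x => hi ⟨x, Cns.idM_map x⟩,
    funext fun z => by simpa only [Mor.comp_map] using h1 i z⟩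

/-- **vanishing of a pull-back depends only on the image** -/
theorem dom (man : C.MAN) (pd : C.PD) : Dom C := fun g v h x hx => by
  obtain ⟨G, a, b, h1, h2⟩ := exists_fib g v h
  refine pd.pb_inj man h1 ?_
  rw [← man.pb_comp, man.pb_congr _ _ h2, man.pb_comp, hx, map_zero, map_zero]

end Crest.Agent.X262.Form88
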