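import Crest.Agent.X262.Form88.Out
import Crest.Agent.X262.Form88.Dom
import Crest.Agent.X262.Int23.Bcg

/-!
# Row 262, FORM (helper88), part 8: the formal facts from `C.Ax` alone
-/

set_option autoImplicit false

namespace Crest.Agent.X262.Form88

open Crest.Agent.X262.Coh

variable {C : Th} (ax : C.Ax)
include ax

theorem domS : Hx56.DomS C := dom ax.man ax.pd

theorem bir0_of : Hx56.Bir0 C := bir0S ax (dom ax.man ax.pd)

theorem frm_of : Chn.Frm C := frm ax (dom ax.man ax.pd) (Int23.bc_zero ax)

end Crest.Agent.X262.Form88
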