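import Crest.Agent.X262.Form88.Geo
import Crest.Agent.X277.BD.Num2

/-!
# Row 262, FORM (helper88), part 3: the push-forward

* `itg_push`, `eq_of_itg`, `push_mul`, `push_comp` : the adjoint of the pull-back;
* `prj` : the homogeneous components; `prj_pb`, `prj_mul`, `push_dg`;
* `push_one`, `itg_pb`, `push_pb` : the degree of a generically finite morphism.
-/

set_option autoImplicit false

noncomputable section

namespace Crest.Agent.X262.Form88

open Crest.Agent.X277 Crest.Agent.X277.Lef Crest.Agent.X277.AN.G1 Crest.Agent.X277.BD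
open Crest.Agent.X262.Coh

variable {C : Th} {X Y Z : SV}

section PD

variable (pd : C.PD)
include pd

theorem eq_of_itg {a a' : C.H X} (h : ∀ b, C.itg X (a * b) = C.itg X (a' * b)) : a = a' :=
  sub_eq_zero.1 ((pd X).2 _ fun b => by rw [sub_mul, map_sub, h, sub_self])

theorem itg_push (μ : Hom X Y) (a : C.H X) (b : C.H Y) :
    C.itg Y (C.push μ a * b) = C.itg X (a * C.pb μ b) := by
  have := (pd Y).1
  have h1 : LinearMap.ker (C.prg Y) = ⊥ :=
    LinearMap.ker_eq_bot'.2 fun a ha => (pd Y).2 a fun b => LinearMap.congr_fun ha b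
  obtain ⟨y, hy⟩ := (LinearMap.injective_iff_surjective_of_finrank_eq_finrank
    (Subspace.dual_finrank_eq (K := ℂ) (V := C.H Y)).symm).1 (LinearMap.ker_eq_bot.1 h1)
    ((C.pb μ).toLinearMap.dualMap (C.prg X a))
  have h2 : C.push μ a = y := by
    change (C.prg Y).leftInverse ((C.pb μ).toLinearMap.dualMap (C.prg X a)) = y
    rw [← hy, LinearMap.leftInverse_apply_of_inj h1]
  rw [h2]
  exact LinearMap.congr_fun hy b

theorem itg_push' (μ : Hom X Y) (a : C.H X) (b : C.H Y) :
    C.itg Y (b * C.push μ a) = C.itg X (C.pb μ b * a) := by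
  rw [mul_comm, itg_push pd, mul_comm]

theorem itg_push_one (μ : Hom X Y) (a : C.H X) : C.itg Y (C.push μ a) = C.itg X a := by
  simpa using itg_push pd μ a 1

/-- projection formula -/
theorem push_mul (μ : Hom X Y) (a : C.H X) (b : C.H Y) :
    C.push μ (a * C.pb μ b) = C.push μ a * b := eq_of_itg pd fun c => by
  rw [itg_push pd, mul_assoc, mul_assoc, itg_push pd, map_mul (C.pb μ)]

theorem push_comp (man : C.MAN) (μ : Hom Y Z) (ν : Hom X Y) (a : C.H X) :
    C.push (Mor.comp μ ν) a = C.push μ (C.push ν a) := eq_of_itg pd fun c => by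
  rw [itg_push pd, itg_push pd, itg_push pd, man.pb_comp]

end PD

variable (man : C.MAN)

/-- the component of degree `2 k` -/
def prj (X : SV) (k : ℕ) : C.H X →ₗ[ℂ] C.H X :=
  (C.dg X k).subtype ∘ₗ DirectSum.component ℂ ℕ (fun k => C.dg X k) k ∘ₗ
    (LinearEquiv.ofBijective (DirectSum.coeLinearMap (C.dg X)) (man.dg_int X)).symm.toLinearMap

variable {k l : ℕ} {a : C.H X}

theorem prj_mem (k : ℕ) (a : C.H X) : prj man X k a ∈ C.dg X k := Submodule.coe_mem _

theorem prj_same (h : a ∈ C.dg X k) : prj man X k a = a :=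
  congrArg Subtype.val ((man.dg_int X).ofBijective_coeLinearMap_of_mem h)

theorem prj_ne (h : a ∈ C.dg X k) (hl : k ≠ l) : prj man X l a = 0 :=
  congrArg Subtype.val ((man.dg_int X).ofBijective_coeLinearMap_of_mem_ne hl h)

include man in
theorem dg_ind {p : C.H X → Prop} (h0 : p 0) (h1 : ∀ a b, p a → p b → p (a + b))
    (h2 : ∀ k, ∀ a ∈ C.dg X k, p a) (a : C.H X) : p a :=
  Submodule.iSup_induction (C.dg X) (motive := p)
    ((man.dg_int X).submodule_iSup_eq_top ▸ Submodule.mem_top) h2 h0 h1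

theorem eq_of_prj {b : C.H X} (h : ∀ k, prj man X k a = prj man X k b) : a = b :=
  (LinearEquiv.ofBijective (DirectSum.coeLinearMap (C.dg X)) (man.dg_int X)).symm.injective
    (DFinsupp.ext fun k => Subtype.ext (h k))

theorem mem_dg_of_prj (h : ∀ l, l ≠ k → prj man X l a = 0) : a ∈ C.dg X k := by
  have h1 : a = prj man X k a := eq_of_prj man fun l => by
    by_cases hl : l = k
    · rw [hl, prj_same man (prj_mem man k a)]
    · rw [h l hl, prj_ne man (prj_mem man k a) (Ne.symm hl)]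
  exact h1 ▸ prj_mem man k a

theorem prj_pb (μ : Hom X Y) (k : ℕ) (b : C.H Y) :
    prj man X k (C.pb μ b) = C.pb μ (prj man Y k b) := by
  refine dg_ind man (p := fun b => prj man X k (C.pb μ b) = C.pb μ (prj man Y k b)) (by simp)
    (fun a b ha hb => by simp only [map_add, ha, hb]) (fun l b hb => ?_) b
  by_cases hl : l = k
  · subst hl
    rw [prj_same man hb, prj_same man (man.pb_dg μ b hb)]
  · rw [prj_ne man hb hl, prj_ne man (man.pb_dg μ b hb) hl, map_zero]

theorem prj_mul (h : a ∈ C.dg X k) (l : ℕ) (b : C.H X) :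
    prj man X (l + k) (b * a) = prj man X l b * a := by
  refine dg_ind man (p := fun b => prj man X (l + k) (b * a) = prj man X l b * a) (by simp)
    (fun a b ha hb => by simp only [map_add, add_mul, ha, hb]) (fun i b hb => ?_) b
  by_cases hl : i = l
  · subst hl
    rw [prj_same man hb, prj_same man (man.dg_mul X hb h)]
  · rw [prj_ne man hb hl, prj_ne man (man.dg_mul X hb h) (by omega), zero_mul]

theorem itg_prj (a : C.H X) : C.itg X (prj man X X.dim a) = C.itg X a := by
  refine dg_ind man (p := fun a => C.itg X (prj man X X.dim a) = C.itg X a) (by simp)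
    (fun a b ha hb => by simp only [map_add, ha, hb]) (fun i b hb => ?_) a
  by_cases hl : i = X.dim
  · rw [prj_same man (hl ▸ hb)]
  · rw [prj_ne man hb hl, man.itg_dg X hl b hb, map_zero]

theorem prj_push (pd : C.PD) (μ : Hom X Y) (h : a ∈ C.dg X k) (hl : k + Y.dim ≠ l + X.dim) :
    prj man Y l (C.push μ a) = 0 := by
  refine (pd Y).2 _ (dg_ind man (by simp) (fun a b ha hb => by rw [mul_add, map_add, ha, hb,
    add_zero]) fun i b hb => ?_)
  by_cases hi : l + i = Y.dim
  · rw [← prj_mul man hb, hi, itg_prj, itg_push pd]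
    exact man.itg_dg X (by omega) _ (man.dg_mul X h (man.pb_dg μ b hb))
  · exact man.itg_dg Y hi _ (man.dg_mul Y (prj_mem man l _) hb)

include man

theorem push_dg (pd : C.PD) (μ : Hom X Y) (h : a ∈ C.dg X k) (hl : k + Y.dim = l + X.dim) :
    C.push μ a ∈ C.dg Y l := mem_dg_of_prj man fun _ _ => prj_push man pd μ h (by omega)

theorem push_eq_zero (pd : C.PD) (μ : Hom X Y) (h : a ∈ C.dg X k) (hl : k + Y.dim < X.dim) :
    C.push μ a = 0 := eq_of_prj man fun l => by rw [prj_push man pd μ h (by omega), map_zero]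

theorem pow_dg (h : a ∈ C.dg X k) (m : ℕ) : a ^ m ∈ C.dg X (m * k) := by
  induction m with
  | zero => simpa using man.dg_one X
  | succ m ih => rw [pow_succ, Nat.succ_mul]; exact man.dg_mul X ih h

theorem hc_pow_dg (X : SV) (m : ℕ) : C.hc X ^ m ∈ C.dg X m := by
  simpa using pow_dg man (man.c1_dg X _ Br.oP_mem) m

theorem itg_c1_pow {D : BD ℂ X.F} (h : D ∈ X.On) (m : ℕ) :
    C.itg X (C.c1 X D ^ m) = (bnum (List.replicate m D) : ℤ) := by
  simpa using man.c1_num X (List.replicate m D) fun a ha => List.eq_of_mem_replicate ha ▸ h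

theorem itg_hc_ne (X : SV) : C.itg X (C.hc X ^ X.dim) ≠ 0 := by
  rw [itg_c1_pow man Br.oP_mem]
  exact Int.cast_ne_zero.2 (bnum_pos (by simp) fun x hx => List.eq_of_mem_replicate hx ▸
    ⟨Br.free_oP.nef, FG.big_oP _⟩).ne'

theorem pb_c1 {μ : Hom X Y} {α : Y.F →ₐ[ℂ] X.F} (hμ : μ.p = Plc.ofHom α) {D : BD ℂ Y.F}
    (h : D ∈ Y.On) : C.pb μ (C.c1 Y D) = C.c1 X (pb α D) :=
  man.c1_pb μ D h _ ⟨1, fun x g hg => by rw [div_one, hμ]; exact hg.pb hμ⟩

/-- **the degree** -/
theorem push_one (pd : C.PD) {μ : Hom X Y} {α : Y.F →ₐ[ℂ] X.F} (hμ : μ.p = Plc.ofHom α)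
    (hd : X.dim = Y.dim) : C.push μ 1 = (deg α : C.H Y) := by
  obtain ⟨c, hc⟩ := man.dg_zero Y _ (push_dg man pd μ (man.dg_one X) (by rw [hd]))
  have h1 := itg_push pd μ 1 (C.hc Y ^ Y.dim)
  rw [hc, one_mul, map_pow, pb_c1 man hμ Br.oP_mem, itg_c1_pow man (Br.pb_mem_On hμ Br.oP_mem),
    ← List.map_replicate, bnum_pb, ← Algebra.smul_def, map_smul, smul_eq_mul, Int.cast_mul,
    ← itg_c1_pow man Br.oP_mem] at h1
  rw [hc, mul_right_cancel₀ (itg_hc_ne man Y) h1]
  simp

theorem push_one_bim (pd : C.PD) {μ : Hom X Y} (h : Bim μ) : C.push μ 1 = 1 := by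
  obtain ⟨α, h1, h2⟩ := id h
  rw [push_one man pd h1 h.dim_eq, deg_of_surj h2, Nat.cast_one]

theorem push_pb (pd : C.PD) {μ : Hom X Y} (h : Bim μ) (b : C.H Y) : C.push μ (C.pb μ b) = b := by
  rw [← one_mul (C.pb μ b), push_mul pd, push_one_bim man pd h, one_mul]

theorem itg_pb (pd : C.PD) {μ : Hom X Y} (h : Bim μ) (b : C.H Y) :
    C.itg X (C.pb μ b) = C.itg Y b := by rw [← itg_push_one pd μ, push_pb man pd h]

end Crest.Agent.X262.Form88
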