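import Crest.Agent.X262.Form88.Snc
import Crest.Agent.X262.Form88.Psh

/-!
# Row 262, FORM (helper88), part 5: supports and birational morphisms

* `supp`, `supp_itg` : the class of a fibre product is supported on the fibre product;
* `c1_mul_eq_zero`   : the class of a divisor is supported on the divisor;
* `exists_cov`, `exists_pr_of_not_surj`, `van_dg`, `van_typ`, `van_exc` : vanishing of pull-backs;
* `fact1`, `fact1_cov`, `fact1_pd`, `dual` : a class which dies on the exceptional locus of a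
  birational morphism is a pull-back; `bir0`.
-/

set_option autoImplicit false

open Set Filter Topology WithZero

noncomputable section

namespace Crest.Agent.X262.Form88

open Crest.Agent.X277 Crest.Agent.X277.Lef Crest.Agent.X277.AN.G1 Crest.Agent.X277.BD
open Crest.Agent.X277.BD.Br (At oP)
open Crest.Agent.X277.Res.Log (On)
open Crest.Agent.X277.Link (IsPD)
open Crest.Agent.X262.Coh

variable {C : Th} {A A' X Y W G E : SV}

/-! ### supports -/

/-- **the class of a fibre product** -/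
theorem supp (man : C.MAN) (pd : C.PD) (dbl : C.DBL) (bc1 : C.BC1) {μ : Hom A Y} {ν : Hom A' Y}
    (hμ : Dmn μ) (hν : Dmn ν) (hY : 0 < Y.dim) :
    ∃ (ι : Type) (_ : Fintype ι) (G : ι → SV) (g : ∀ i, Hom (G i) (A.prod A'))
      (γ : ∀ i, C.H (G i)),
      (∀ i z, μ.map ((fst A A').map ((g i).map z)) = ν.map ((snd A A').map ((g i).map z))) ∧
      (∀ i, (G i).dim + 1 = (A.prod A').dim) ∧
      C.pb (pmap μ ν) (C.push (dia Y) 1) = ∑ i, C.push (g i) (γ i) := by
  obtain ⟨B, E, b, j, a, ⟨β, hb, hβ⟩, hj, h1, γ, h2⟩ := dbl Y hY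
  obtain ⟨α, hα⟩ := hμ.pmap hν
  let ε := AlgEquiv.ofBijective β ⟨β.toRingHom.injective, hβ⟩
  obtain ⟨M, π, u, h3, h4, ι, _, G, v, e, m, w, h5, h6, h7⟩ :=
    exists_bc (A := A.prod A') hj (α.comp ε.symm.toAlgHom)
  have h8 : (Mor.comp b u).map = (Mor.comp (pmap μ ν) π).map := map_congr fun x f _ => by
    have h9 : ∀ f, (Mor.comp b u).p.π f = α f := fun f => by
      change u.p.π (b.p.π f) = _
      rw [h4, hb]
      exact congrArg α (ε.symm_apply_apply f)
    refine ⟨⟨hb ▸ Algebra.mem_top, h4 ▸ Algebra.mem_top⟩, (h9 f).trans ?_⟩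
    change _ = π.p.π ((pmap μ ν).p.π f)
    rw [h3, hα]
    rfl
  refine ⟨ι, inferInstance, G, fun i => Mor.comp π (v i), fun i => m i • C.pb (w i) γ,
    fun i z => ?_, fun i => (h5 i).dim_eq, ?_⟩
  · have h9 := (h1 _).2 ⟨(w i).map z, rfl⟩
    rw [← Mor.comp_map j, h7 i, Mor.comp_map, ← Mor.comp_map b, h8, Mor.comp_map,
      mem_range_dia, fst_pmap, snd_pmap] at h9
    rwa [Mor.comp_map]
  · rw [← push_pb man pd (bim_id h3) (C.pb (pmap μ ν) _), ← man.pb_comp, ← man.pb_congr _ _ h8,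
      man.pb_comp, h2, bc1 j a u G v e m w hj h5 h6 h7, map_sum]
    exact Finset.sum_congr rfl fun i _ => by rw [push_comp pd man, map_nsmul, map_nsmul, map_nsmul]

theorem supp_itg (man : C.MAN) (pd : C.PD) (dbl : C.DBL) (bc1 : C.BC1) {μ : Hom A Y}
    {ν : Hom A' Y} (hμ : Dmn μ) (hν : Dmn ν) (hY : 0 < Y.dim) (y : C.H (A.prod A'))
    (h : ∀ (G : SV) (g : Hom G (A.prod A')),
      (∀ z, μ.map ((fst A A').map (g.map z)) = ν.map ((snd A A').map (g.map z))) → C.pb g y = 0) :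
    y * C.pb (pmap μ ν) (C.push (dia Y) 1) = 0 := by
  obtain ⟨ι, _, G, g, γ, h1, -, h2⟩ := supp man pd dbl bc1 hμ hν hY
  rw [h2, Finset.mul_sum]
  exact Finset.sum_eq_zero fun i _ => by
    rw [mul_comm, ← push_mul pd, h _ _ (h1 i), mul_zero, map_zero]

/-- **the class of a divisor kills the classes which die on its support** -/
theorem c1_mul_eq_zero (man : C.MAN) (pd : C.PD) (pl0 : C.PL0) {a : BD ℂ W.F} (ha : a ∈ W.On)
    {z : C.H W} (h : ∀ (G : SV) (v : Hom G W), G.dim + 1 = W.dim → (∀ q, ¬ At a (v.map q) 1) →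
      C.pb v z = 0) : C.c1 W a * z = 0 := by
  obtain ⟨M, π, h1, ι, _, G, v, e, h2, h3, h4⟩ := exists_snc W {a}
  obtain ⟨-, m, h5, -, h6⟩ := h4 a (Finset.mem_singleton_self a)
  have h7 : C.c1 (sv M) a = ∑ i, m i • C.push (v i) 1 := by
    conv_lhs => rw [h5]
    rw [man.c1_sum _ fun i _ => zsmul_mem (h2 i).on (m i)]
    exact Finset.sum_congr rfl fun i _ => by rw [man.c1_zsmul (h2 i).on, pl0 _ _ (h2 i)]
  rw [← push_pb man pd (bim_id h1) (C.c1 W a * z), map_mul, pb_c1 man h1 ha, pb_id, h7,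
    Finset.sum_mul, Finset.sum_eq_zero fun i _ => ?_, map_zero]
  by_cases h8 : m i = 0
  · rw [h8, zero_smul, zero_mul]
  · rw [smul_mul_assoc, ← push_mul pd, ← man.pb_comp, h _ _ (h3 i) fun q hq => h8 (h6 i q ?_),
      mul_zero, map_zero, smul_zero]
    rw [Mor.comp_map] at hq
    have h9 := hq.pb h1
    rwa [pb_id, map_one] at h9

/-! ### vanishing -/

theorem exists_all' (g : Hom G Y) {ι : Type*} {S : Set ι} (hS : S.Finite) (A : ι → Set Y.F)
    (h : ∀ᶠ q in residual G.Pt, ∃ i ∈ S, ∀ f ∈ (lp (g.map q)).O, f ∈ A i) :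
    ∃ i ∈ S, ∀ q, ∀ f ∈ (lp (g.map q)).O, f ∈ A i := by
  by_contra hc
  have h1 : ∀ i ∈ S, ∀ᶠ q in residual G.Pt, ¬ ∀ f ∈ (lp (g.map q)).O, f ∈ A i := fun i hi => by
    obtain ⟨q, hq⟩ := not_forall.1 fun h2 => hc ⟨i, hi, h2⟩
    exact res_not_le g hq
  obtain ⟨q, -, h2, i, hi, h3⟩ :=
    res_exists (((eventually_all_finite hS).2 h1).and h) isOpen_univ univ_nonempty
  exact h2 i hi h3

/-- an irreducible image which is covered by finitely many images lies in one of them -/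
theorem exists_range (g : Hom G Y) {ι : Type*} {S : Set ι} (hS : S.Finite) {E : ι → SV}
    (u : ∀ i, Hom (E i) Y) (h : ∀ᶠ q in residual G.Pt, ∃ i ∈ S, g.map q ∈ range (u i).map) :
    ∃ i ∈ S, range g.map ⊆ range (u i).map := by
  obtain ⟨i, hi, h1⟩ := exists_all' g hS (fun i => (u i).p.O) (h.mono fun q ⟨i, hi, z, hz⟩ =>
    ⟨i, hi, hz ▸ le_map (u i) z⟩)
  exact ⟨i, hi, forall_mem_range.2 fun q => mem_range (u i) (h1 q)⟩

/-- a proper closed subset of the image of `u` comes from a prime divisor -/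
theorem exists_cov (g : Hom G Y) (u : Hom E Y) (h : range g.map ⊆ range u.map) {q₀ : G.Pt}
    {f : Y.F} (hf : f ∈ (lp (g.map q₀)).O) (h0 : g.p.π f = 0) (h1 : u.p.π f ≠ 0) :
    ∃ (D : SV) (t : Hom D E) (v : Valuation E.F ℤᵐ⁰), IsPD E.P v ∧ Val t v ∧ IsPr t ∧
      range g.map ⊆ range (Mor.comp u t).map := by
  choose D t h2 h3 using fun v : {v // IsPD E.P v} => exists_pr v.2
  obtain ⟨v, -, h4⟩ := exists_range g ((Link.finite_isPD E.P h1).preimage
    Subtype.val_injective.injOn) (fun v => Mor.comp u (t v)) ((res_mem' g q₀ hf).mono fun q hq => by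
      obtain ⟨z, hz⟩ := h ⟨q, rfl⟩
      obtain ⟨e, h5, h6⟩ := (Link.ev_eq_zero_iff (u.π_mem (hz ▸ hq)) h1).1 (by
        rw [← u.ev_map (hz ▸ hq), hz, g.ev_map hq, h0]
        exact LP.v_zero _)
      obtain ⟨z', hz'⟩ := (h2 ⟨e.1, e.2⟩).mem_range.2 h5
      exact ⟨⟨e.1, e.2⟩, ⟨e.2, h6.ne⟩, z', by rw [Mor.comp_map, hz', hz]⟩)
  exact ⟨_, t v, v.1, v.2, h2 v, h3 v, h4⟩

theorem exists_pr_of_not_surj {g : Hom G Y} (h : ¬ Function.Surjective g.map) :
    ∃ (D : SV) (t : Hom D Y) (v : Valuation Y.F ℤᵐ⁰), IsPD Y.P v ∧ Val t v ∧ IsPr t ∧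
      range g.map ⊆ range t.map := by
  obtain ⟨q₀⟩ : Nonempty G.Pt := inferInstance
  obtain ⟨c, hc, h0, h1⟩ : ∃ c ∈ (lp (g.map q₀)).O, c ≠ 0 ∧ g.p.π c = 0 := by
    by_contra hc
    refine h fun y => mem_range g fun f _ => ?_
    obtain ⟨a, ha, c, h1, h2, rfl⟩ := frac_lp (g.map q₀) f
    exact Plc.div_mem (g.mem_O ha) fun h3 => hc ⟨c, h1, h2, h3⟩
  obtain ⟨D, t, v, h2, h3, h4, h5⟩ := exists_cov g (idH Y)
    (fun y _ => ⟨y, Cns.idM_map y⟩) hc h1 h0
  refine ⟨D, t, v, h2, h3, h4, h5.trans (forall_mem_range.2 fun z => ⟨z, ?_⟩)⟩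
  rw [Mor.comp_map, Cns.idM_map]

/-- the image of a place which is not a prime divisor has codimension at least two -/
theorem exists_codim_two {g : Hom G Y} (h : ¬ Function.Surjective g.map)
    (h1 : ∀ v, IsPD Y.P v → ¬ Val g v) :
    ∃ (D : SV) (t : Hom D Y), D.dim + 2 = Y.dim ∧ range g.map ⊆ range t.map := by
  obtain ⟨E, u, v, h2, h3, h4, h5⟩ := exists_pr_of_not_surj h
  obtain ⟨q₀⟩ : Nonempty G.Pt := inferInstance
  have h6 : ∀ q, On v (g.map q) := fun q => h3.mem_range.1 (h5 ⟨q, rfl⟩)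
  obtain ⟨f, hf, h7, h8⟩ : ∃ f ∈ (lp (g.map q₀)).O, g.p.π f = 0 ∧ u.p.π f ≠ 0 := by
    by_contra hc
    refine h1 v h2 (val_of_ker h2 (h6 q₀) fun f hf => ⟨fun h7 => ?_, fun h7 => ?_⟩)
    · exact (h3.π_eq_iff (h6 q₀ f hf)).1 (by_contra fun h8 => hc ⟨f, hf, h7, h8⟩)
    · exact eq_zero_of_res ((res_mem' g q₀ hf).mono fun q hq => by
        rw [← g.ev_map hq]
        exact (h6 q).ev_eq h7)
  obtain ⟨D, t, -, -, -, h9, h10⟩ := exists_cov g u h5 hf h7 h8
  exact ⟨D, _, by rw [← h4.2, ← h9.2], h10⟩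

variable (C) in
/-- vanishing of a pull-back depends only on the image -/
def Dom : Prop := ∀ {A B V : SV} (g : Hom A V) (v : Hom B V),
  Set.range g.map ⊆ Set.range v.map → ∀ x, C.pb v x = 0 → C.pb g x = 0

theorem van_dg (man : C.MAN) (dom : Dom C) {g : Hom G Y} (h : ¬ Function.Surjective g.map)
    {a : C.H Y} (ha : a ∈ C.dg Y Y.dim) : C.pb g a = 0 := by
  obtain ⟨D, t, -, -, -, h1, h2⟩ := exists_pr_of_not_surj h
  exact dom g t h2 a ((Submodule.eq_bot_iff _).1 (man.dg_gt D (by rw [← h1.2]; omega)) _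
    (man.pb_dg t a ha))

theorem pb_typ_eq_zero (man : C.MAN) (ty : C.TYP) (t : Hom G Y) {p q : ℕ}
    (h : G.dim < p ∨ G.dim < q) {a : C.H Y} (ha : a ∈ C.typ Y p q) : C.pb t a = 0 :=
  (Submodule.eq_bot_iff _).1 (h.elim (ty.gt G q) (ty.gt' man G p)) _ (ty.pb t a ha)

theorem van_typ (man : C.MAN) (ty : C.TYP) (dom : Dom C) {g : Hom G Y}
    (h : ¬ Function.Surjective g.map) {p q : ℕ} (hp : p = Y.dim ∨ q = Y.dim) {a : C.H Y}
    (ha : a ∈ C.typ Y p q) : C.pb g a = 0 := by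
  obtain ⟨D, t, -, -, -, h1, h2⟩ := exists_pr_of_not_surj h
  exact dom g t h2 a (pb_typ_eq_zero man ty t (by have := h1.2; omega) ha)

theorem van_exc (man : C.MAN) (ty : C.TYP) (dom : Dom C) {g : Hom G Y}
    (h : ¬ Function.Surjective g.map) (h1 : ∀ v, IsPD Y.P v → ¬ Val g v) {p q : ℕ}
    (hp : p + 1 = Y.dim ∨ q + 1 = Y.dim) {a : C.H Y} (ha : a ∈ C.typ Y p q) : C.pb g a = 0 := by
  obtain ⟨D, t, h2, h3⟩ := exists_codim_two h h1
  exact dom g t h3 a (pb_typ_eq_zero man ty t (by omega) ha)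

/-! ### birational morphisms -/

theorem prj_push_eq (man : C.MAN) (pd : C.PD) (μ : Hom X Y) (hd : X.dim = Y.dim) (k : ℕ)
    (a : C.H X) : prj man Y k (C.push μ a) = C.push μ (prj man X k a) := by
  refine dg_ind man (p := fun a => prj man Y k (C.push μ a) = C.push μ (prj man X k a)) (by simp)
    (fun a b ha hb => by simp only [map_add, ha, hb]) (fun l b hb => ?_) a
  by_cases hl : l = k
  · subst hl
    rw [prj_same man hb, prj_same man (push_dg man pd μ hb (by rw [hd]))]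
  · rw [prj_ne man hb hl, prj_push man pd μ hb (by omega), map_zero]

theorem itg_pb_push (pd : C.PD) (h : Hom W Y) (x y : C.H W) :
    C.itg W (C.pb h (C.push h x) * y) = C.itg W (x * C.pb h (C.push h y)) := by
  rw [← itg_push' pd, itg_push pd]

section Fact

variable (ax : C.Ax) (dom : Dom C) {h : Hom W Y} (hh : Bim h)
include ax dom hh

/-- **a class which dies on the exceptional locus is a pull-back** -/
theorem fact1 {x : C.H W}
    (hx : ∀ (G : SV) (g : Hom G W), (∀ z, ¬ Iso h (g.map z)) → C.pb g x = 0) :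
    C.pb h (C.push h x) = x := by
  classical
  have man := ax.man
  have pd := ax.pd
  rcases Nat.eq_zero_or_pos Y.dim with h0 | h0
  · obtain ⟨c, rfl⟩ := man.dg_zero W x (mem_dg_of_prj man fun l hl => (Submodule.eq_bot_iff _).1
      (man.dg_gt W (by rw [hh.dim_eq]; omega)) _ (prj_mem man l x))
    rw [← (C.pb h).commutes, push_pb man pd hh]
  obtain ⟨ι, _, G, g, γ, h1, -, h2⟩ := supp man pd ax.dbl ax.bc1 hh.dmn hh.dmn h0
  let S := Finset.univ.filter fun i =>
    (Mor.comp (fst W W) (g i)).map = (Mor.comp (snd W W) (g i)).map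
  let κ := ∑ i ∈ S, C.push (Mor.comp (fst W W) (g i)) (γ i)
  obtain ⟨c, hc⟩ := man.dg_zero W _ (prj_mem man 0 κ)
  have h3 : ∀ k, ∀ a ∈ C.dg W k, (∀ (G : SV) (g : Hom G W), (∀ z, ¬ Iso h (g.map z)) →
      C.pb g a = 0) → C.pb h (C.push h a) = c • a := fun k a hk ha => by
    have h4 : C.pb h (C.push h a) = κ * a := eq_of_itg pd fun b => by
      rw [← itg_push' pd, ← ax.diag, h2, Finset.mul_sum, map_sum, mul_assoc, Finset.sum_mul,
        map_sum, Finset.sum_filter]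
      refine Finset.sum_congr rfl fun i _ => ?_
      rw [itg_push' pd, map_mul (C.pb (g i)), ← man.pb_comp, ← man.pb_comp]
      split_ifs with h5
      · rw [← man.pb_congr _ _ h5, itg_push pd, map_mul (C.pb _), mul_comm]
      · rw [ha _ _ (not_iso_of_ne (funext fun z => by simp only [Mor.comp_map, h1]) h5), zero_mul,
          zero_mul, map_zero]
    have h5 := prj_mul man hk 0 κ
    rwa [← h4, zero_add, prj_same man (man.pb_dg h _ (push_dg man pd h hk (by rw [hh.dim_eq]))), hc,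
      ← Algebra.smul_def] at h5
  have h4 : c = 1 := by
    have h5 := man.pb_dg h _ (hc_pow_dg man Y Y.dim)
    have h6 := congrArg (C.itg W) (h3 _ _ h5 fun G g hg => van_dg man dom
      (mt dmn_iff.2 (hh.not_dmn hg)) (hh.dim_eq ▸ h5))
    rw [push_pb man pd hh, map_smul, itg_pb man pd hh, smul_eq_mul] at h6
    exact (mul_eq_right₀ (itg_hc_ne man Y)).1 h6.symm
  refine eq_of_prj man fun k => ?_
  rw [prj_pb, prj_push_eq man pd h hh.dim_eq, h3 k _ (prj_mem man k x) fun G g hg => by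
    rw [← prj_pb, hx G g hg, map_zero], h4, one_smul]

theorem fact1_cov {ι : Type*} [Finite ι] {E : ι → SV} (u : ∀ i, Hom (E i) W)
    (hu : ∀ w, ¬ Iso h w → ∃ i, w ∈ range (u i).map) {x : C.H W} (hx : ∀ i, C.pb (u i) x = 0) :
    C.pb h (C.push h x) = x := fact1 ax dom hh fun _ g hg => by
  obtain ⟨i, -, hi⟩ := exists_range g finite_univ u (Eventually.of_forall fun q =>
    (hu _ (hg q)).imp fun i hi => ⟨trivial, hi⟩)
  exact dom g (u i) hi x (hx i)

/-- the dual form -/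
theorem dual {ι : Type*} [Finite ι] {E : ι → SV} (u : ∀ i, Hom (E i) W)
    (hu : ∀ w, ¬ Iso h w → ∃ i, w ∈ range (u i).map) (x : C.H W) :
    x - C.pb h (C.push h x) ∈ ⨆ i, LinearMap.range (C.push (u i)) :=
  ax.pd.mem_iSup_push fun y hy => by
    rw [sub_mul, map_sub, itg_pb_push ax.pd, fact1_cov ax dom hh u hu hy, sub_self]

/-- **classes of type `(p, 0)` and `(0, p)` are birational invariants** -/
theorem bir0 {p : ℕ} {x : C.H W} (hx : x ∈ C.typ W p 0 ∨ x ∈ C.typ W 0 p) :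
    C.pb h (C.push h x) = x := by
  have h1 : ∀ i j, i = 0 ∨ j = 0 → x ∈ C.typ W i j → C.pb h (C.push h x) = x := fun i j h0 hx => by
    refine sub_eq_zero.1 (ax.typ.eq_zero_of_typ ax.man ax.pd (sub_mem (ax.typ.pb h _
      (ax.typ.push_typ ax.man ax.pd h (by rw [hh.dim_eq, add_comm]) (by rw [hh.dim_eq, add_comm])
        hx)) hx) fun k l h2 h3 y hy => ?_)
    rw [sub_mul, map_sub, itg_pb_push ax.pd, fact1 ax dom hh fun G g hg => van_typ ax.man ax.typ dom
      (mt dmn_iff.2 (hh.not_dmn hg)) (by omega) hy, sub_self]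
  exact hx.elim (h1 _ _ (Or.inr rfl)) (h1 _ _ (Or.inl rfl))

end Fact

section Same

variable {F : Type} [Field F] [Algebra ℂ F] {P Q : PModel ℂ F} {μ : Hom (sv P) (sv Q)}
  (hμ : μ.p = Plc.ofHom (AlgHom.id ℂ F))
include hμ

/-- purity: the exceptional locus is covered by the contracted divisors -/
theorem exists_pd_of_not_iso {w : Pts P} (h : ¬ Iso μ w) :
    ∃ v, IsPD P v ∧ ¬ IsPD Q v ∧ On v w := by
  by_contra hc
  refine h fun g hg => ⟨g, lp_le_of_pd (bir_dom hμ w) (fun v h1 h2 => ?_) hg, by rw [hμ]; rfl⟩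
  exact by_contra fun h3 => hc ⟨v, h1, h3, h2⟩

/-- a class which dies on the contracted divisors is a pull-back -/
theorem fact1_pd (ax : C.Ax) (dom : Dom C) {x : C.H (sv P)}
    (hx : ∀ v (E : SV) (u : Hom E (sv P)), IsPD P v → ¬ IsPD Q v → Val u v → IsPr u →
      C.pb u x = 0) : C.pb μ (C.push μ x) = x := by
  have := (finite_exc P Q).to_subtype
  choose E u h1 h2 using fun v : {v | IsPD P v ∧ ¬ IsPD Q v} => exists_pr (Y := sv P) v.2.1
  exact fact1_cov ax dom (bim_id hμ) u (fun w hw => (exists_pd_of_not_iso hμ hw).elim fun v hv =>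
    ⟨⟨v, hv.1, hv.2.1⟩, (h1 _).mem_range.2 hv.2.2⟩) fun v => hx v.1 _ _ v.2.1 v.2.2 (h1 v) (h2 v)

end Same

end Crest.Agent.X262.Form88
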